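import Vale.Agent.P028.MathlibUsed
import Vale.Agent.P028.F53.Prod

/-!
# Coupling of two places of a word inside a block without deviations
-/

namespace Vale.P028.RkP

open Finset Vale.P028.RN

variable {N : ℕ} {L : Type*} [Fintype L] [DecidableEq L]

/-- the word is trivial at the coordinates in `[i, s)` -/
def Tv (o : Fin N → L) (i s : ℕ) (ω : Fin N → L) : Prop := ∀ j : Fin N, i ≤ (j : ℕ) → (j : ℕ) < s →
  ω j = o j

instance (o : Fin N → L) (i s : ℕ) (ω : Fin N → L) : Decidable (Tv o i s ω) := by
  unfold Tv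
  infer_instance

omit [Fintype L] [DecidableEq L] in
theorem mix_of_Tv {o : Fin N → L} {i s : ℕ} (his : i ≤ s) {ω : Fin N → L} (hω : Tv o i s ω)
    {z : Fin N → L} (hz : Tv o i s z) : mix s z ω = mix i z ω := by
  funext j
  unfold mix
  by_cases h1 : (j : ℕ) < i
  · rw [if_pos h1, if_pos (by omega)]
  · by_cases h2 : (j : ℕ) < s
    · rw [if_neg h1, if_pos h2, hω j (by omega) h2, hz j (by omega) h2]
    · rw [if_neg h1, if_neg h2]

/-- probability of no deviation in `[i, s)` -/
noncomputable def pT (π : Fin N → L → ℝ) (o : Fin N → L) (i s : ℕ) : ℝ :=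
  ∏ j ∈ univ.filter (fun j : Fin N => i ≤ (j : ℕ) ∧ (j : ℕ) < s), π j (o j)

omit [DecidableEq L] in
theorem pT_ge {π : Fin N → L → ℝ} (hπ : ∀ j m, 0 ≤ π j m) (h1 : ∀ j, ∑ m, π j m = 1)
    (o : Fin N → L) (i s : ℕ) :
    1 - ∑ j ∈ univ.filter (fun j : Fin N => i ≤ (j : ℕ) ∧ (j : ℕ) < s), (1 - π j (o j)) ≤
      pT π o i s := by
  unfold pT
  have h : ∀ S : Finset (Fin N), 1 - ∑ j ∈ S, (1 - π j (o j)) ≤ ∏ j ∈ S, π j (o j) ∧
      ∏ j ∈ S, π j (o j) ≤ 1 := by
    intro S
    induction S using Finset.induction_on with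
    | empty => simp
    | insert a S ha ih =>
      have hle : π a (o a) ≤ 1 := by
        rw [← h1 a]
        exact single_le_sum (fun m _ => hπ a m) (mem_univ _)
      rw [sum_insert ha, prod_insert ha]
      have h3 : 0 ≤ ∏ j ∈ S, π j (o j) := prod_nonneg fun j _ => hπ j _
      have h4 := hπ a (o a)
      constructor
      · nlinarith [ih.1, ih.2]
      · nlinarith [ih.2]
  exact (h _).1

/-- **Coupling**: if `ω` has no deviation in `[i, s)`, the average over the outer labels of the
place `i` is the average over the outer labels of the place `s` restricted to the words without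
deviation in `[i, s)`. -/
theorem cE_couple {π : Fin N → L → ℝ} (h1 : ∀ j, ∑ m, π j m = 1)
    {o : Fin N → L} {i s : ℕ} (his : i ≤ s) {ω : Fin N → L} (hω : Tv o i s ω)
    (h : (Fin N → L) → ℝ) :
    cE π s (fun x => if Tv o i s x then h x else 0) ω = pT π o i s * cE π i h ω := by
  classical
  have hT : ∀ z : Fin N → L, Tv o i s (mix s z ω) ↔ Tv o i s z := by
    intro z
    unfold Tv
    refine forall_congr' fun j => forall_congr' fun h3 => forall_congr' fun h4 => ?_
    unfold mix
    rw [if_pos h4]
  have e1 : cE π s (fun x => if Tv o i s x then h x else 0) ω =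
      ∑ z, Pr π z * (if Tv o i s z then h (mix i z ω) else 0) := by
    unfold cE
    refine sum_congr rfl fun z _ => ?_
    congr 1
    by_cases hz : Tv o i s z
    · simp only [(hT z).2 hz, hz, if_true]
      rw [mix_of_Tv his hω hz]
    · simp only [mt (hT z).1 hz, hz, if_false]
  rw [e1]
  -- factorise
  set S : Finset (Fin N) := univ.filter (fun j : Fin N => i ≤ (j : ℕ) ∧ (j : ℕ) < s) with hS
  -- both sides as Ex
  have e2 : ∀ z : Fin N → L, (if Tv o i s z then h (mix i z ω) else 0) =
      (∏ j, (if j ∈ S then (if z j = o j then (1 : ℝ) else 0) else 1)) * h (mix i z ω) := by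
    intro z
    by_cases hz : Tv o i s z
    · rw [if_pos hz]
      have : (∏ j, (if j ∈ S then (if z j = o j then (1 : ℝ) else 0) else 1)) = 1 := by
        refine prod_eq_one fun j _ => ?_
        split_ifs with h5 h6
        · rfl
        · exfalso
          rw [hS, mem_filter] at h5
          exact h6 (hz j h5.2.1 h5.2.2)
        · rfl
      rw [this, one_mul]
    · rw [if_neg hz]
      unfold Tv at hz
      push Not at hz
      obtain ⟨j, h5, h6, h7⟩ := hz
      have : (∏ j, (if j ∈ S then (if z j = o j then (1 : ℝ) else 0) else 1)) = 0 := by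
        refine prod_eq_zero (mem_univ j) ?_
        rw [if_pos (mem_filter.2 ⟨mem_univ _, h5, h6⟩), if_neg h7]
      rw [this, zero_mul]
  simp only [e2]
  -- sum over pairs (z, z') : use that `h (mix i z ω)` depends only on the labels `< i`
  have e3 : ∀ z : Fin N → L, h (mix i z ω) = ∑ y, Pr π y * h (mix i (mix i z y) ω) := by
    intro z
    have : ∀ y : Fin N → L, mix i (mix i z y) ω = mix i z ω := by
      intro y
      funext j
      unfold mix
      split_ifs <;> rfl
    simp only [this]
    rw [← sum_mul, Pr_sum π h1, one_mul]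
  -- change of variables (z, y) -> (mix i z y, mix i y z)
  have e4 : ∑ z, Pr π z * ((∏ j, (if j ∈ S then (if z j = o j then (1 : ℝ) else 0) else 1)) *
      h (mix i z ω)) = ∑ x : (Fin N → L) × (Fin N → L), Pr π x.1 * Pr π x.2 *
        ((∏ j, (if j ∈ S then (if x.1 j = o j then (1 : ℝ) else 0) else 1)) *
          h (mix i (mix i x.1 x.2) ω)) := by
    rw [← univ_product_univ, sum_product]
    refine sum_congr rfl fun z _ => ?_
    nth_rewrite 1 [e3 z]
    simp only
    rw [mul_sum, mul_sum]
    exact sum_congr rfl fun y _ => by ring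
  have e5 : pT π o i s * cE π i h ω = ∑ x : (Fin N → L) × (Fin N → L), Pr π x.1 * Pr π x.2 *
        ((∏ j, (if j ∈ S then (if x.2 j = o j then (1 : ℝ) else 0) else 1)) *
          h (mix i x.1 ω)) := by
    have e6 : pT π o i s = ∑ y, Pr π y *
        ∏ j, (if j ∈ S then (if y j = o j then (1 : ℝ) else 0) else 1) := by
      unfold Pr pT
      have : ∀ y : Fin N → L, (∏ j, π j (y j)) *
          ∏ j, (if j ∈ S then (if y j = o j then (1 : ℝ) else 0) else 1) =
          ∏ j, (fun (j : Fin N) (m : L) => π j m *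
            (if j ∈ S then (if m = o j then (1 : ℝ) else 0) else 1)) j (y j) := by
        intro y
        rw [← prod_mul_distrib]
      have hpu := prod_univ_sum (fun _ : Fin N => (univ : Finset L)) (fun (j : Fin N) (m : L) =>
        π j m * (if j ∈ S then (if m = o j then (1 : ℝ) else 0) else 1))
      rw [sum_congr rfl fun y _ => this y, ← Fintype.piFinset_univ, ← hpu, ← hS,
        ← prod_filter_mul_prod_filter_not univ (fun j => j ∈ S)]
      have f1 : ∏ j ∈ univ.filter (fun j => j ∉ S), ∑ m, π j m *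
          (if j ∈ S then (if m = o j then (1 : ℝ) else 0) else 1) = 1 := by
        refine prod_eq_one fun j hj => ?_
        have hj' := (mem_filter.1 hj).2
        simp only [hj', if_false, mul_one]
        exact h1 j
      rw [f1, mul_one]
      have f2 : univ.filter (fun j => j ∈ S) = S := by
        ext j
        simp
      rw [f2]
      refine prod_congr rfl fun j hj => ?_
      simp only [hj, if_true, mul_ite, mul_one, mul_zero]
      rw [sum_ite_eq' univ (o j)]
      simp
    rw [e6]
    unfold cE
    rw [sum_mul_sum, ← univ_product_univ, sum_product, sum_comm]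
    refine sum_congr rfl fun z _ => sum_congr rfl fun y _ => ?_
    simp only
    ring
  rw [e4, e5]
  refine Fintype.sum_bijective (fun x : (Fin N → L) × (Fin N → L) => (mix i x.1 x.2, mix i x.2 x.1))
    ?_ _ _ fun x => ?_
  · refine Function.Involutive.bijective fun x => ?_
    simp only [mix_swap]
  · simp only
    have f3 : Pr π (mix i x.1 x.2) * Pr π (mix i x.2 x.1) = Pr π x.1 * Pr π x.2 :=
      Pr_mix π i x.1 x.2
    rw [f3]
    congr 2
    refine prod_congr rfl fun j _ => ?_
    by_cases hj : j ∈ S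
    · have hj' := (mem_filter.1 hj).2
      have : mix i x.2 x.1 j = x.1 j := by
        unfold mix
        rw [if_neg (by omega)]
      simp only [hj, if_true, this]
    · simp only [hj, if_false]

/-- the form used for the rows: many places of one block are replaced by its end -/
theorem cE_block {π : Fin N → L → ℝ} (hπ : ∀ j m, 0 ≤ π j m) (h1 : ∀ j, ∑ m, π j m = 1)
    {o : Fin N → L} {I : Finset ℕ} {a s : ℕ} (hI : ∀ i ∈ I, a ≤ i ∧ i ≤ s)
    {ω : Fin N → L} (hω : Tv o a s ω)
    (hm : ∑ j ∈ univ.filter (fun j : Fin N => a ≤ (j : ℕ) ∧ (j : ℕ) < s), (1 - π j (o j)) ≤ 1 / 2)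
    {h : ℕ → (Fin N → L) → ℝ} (hh : ∀ i x, 0 ≤ h i x) :
    ∑ i ∈ I, cE π i (h i) ω ≤ 2 * cE π s (fun x => ∑ i ∈ I, if Tv o i s x then h i x else 0) ω := by
  classical
  have e1 : cE π s (fun x => ∑ i ∈ I, if Tv o i s x then h i x else 0) ω =
      ∑ i ∈ I, cE π s (fun x => if Tv o i s x then h i x else 0) ω := by
    unfold cE
    rw [sum_comm]
    exact sum_congr rfl fun z _ => by rw [mul_sum]
  rw [e1, mul_sum]
  refine sum_le_sum fun i hi => ?_
  have hω' : Tv o i s ω := fun j h3 h4 => hω j ((hI i hi).1.trans h3) h4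
  rw [cE_couple h1 (hI i hi).2 hω' (h i)]
  have h5 : 1 / 2 ≤ pT π o i s := by
    refine le_trans ?_ (pT_ge hπ h1 o i s)
    have h6 : ∑ j ∈ univ.filter (fun j : Fin N => i ≤ (j : ℕ) ∧ (j : ℕ) < s), (1 - π j (o j)) ≤
        ∑ j ∈ univ.filter (fun j : Fin N => a ≤ (j : ℕ) ∧ (j : ℕ) < s), (1 - π j (o j)) := by
      refine sum_le_sum_of_subset_of_nonneg ?_ fun j _ _ => ?_
      · intro j hj
        rw [mem_filter] at hj ⊢
        exact ⟨hj.1, (hI i hi).1.trans hj.2.1, hj.2.2⟩
      · have : π j (o j) ≤ 1 := by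
          rw [← h1 j]
          exact single_le_sum (fun m _ => hπ j m) (mem_univ _)
        linarith
    linarith
  have h7 : 0 ≤ cE π i (h i) ω := cE_nonneg hπ (hh i) ω
  nlinarith

end Vale.P028.RkP
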