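import Vale.Agent.P028.MathlibUsed
import Vale.Agent.P028.F53.Prod
import Vale.Agent.P028.R689.Couple

/-!
# The Lindley walk of the outer labels: exponential moments, Hölder, pieces
-/

namespace Vale.P028.RkP

open Finset Vale.P028.RN

variable {N : ℕ} {L : Type*} [DecidableEq L]

/-- the Lindley walk : a deviation adds `1`, a trivial place subtracts `κ μ` -/
noncomputable def Yl (o : Fin N → L) (μ : Fin N → ℝ) (κ : ℝ) : ℕ → (Fin N → L) → ℝ
  | 0, _ => 0
  | i + 1, ω => if h : i < N then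
      max (Yl o μ κ i ω + (if ω ⟨i, h⟩ = o ⟨i, h⟩ then -(κ * μ ⟨i, h⟩) else 1)) 0
      else Yl o μ κ i ω

variable {o : Fin N → L} {μ : Fin N → ℝ} {κ : ℝ}

theorem Yl_zero (ω : Fin N → L) : Yl o μ κ 0 ω = 0 := rfl

theorem Yl_succ {i : ℕ} (h : i < N) (ω : Fin N → L) : Yl o μ κ (i + 1) ω =
    max (Yl o μ κ i ω + (if ω ⟨i, h⟩ = o ⟨i, h⟩ then -(κ * μ ⟨i, h⟩) else 1)) 0 := by
  rw [Yl]
  rw [dif_pos h]

theorem Yl_succ' {i : ℕ} (h : ¬ i < N) (ω : Fin N → L) : Yl o μ κ (i + 1) ω = Yl o μ κ i ω := by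
  rw [Yl]
  rw [dif_neg h]

theorem Yl_nonneg (i : ℕ) (ω : Fin N → L) : 0 ≤ Yl o μ κ i ω := by
  induction i with
  | zero => exact le_rfl
  | succ i ih =>
    by_cases h : i < N
    · rw [Yl_succ h]
      exact le_max_right _ _
    · rw [Yl_succ' h]
      exact ih

/-- the walk at `i` depends only on the labels `< i` -/
theorem Yl_congr {i : ℕ} {ω ω' : Fin N → L} (h : ∀ j : Fin N, (j : ℕ) < i → ω j = ω' j) :
    Yl o μ κ i ω = Yl o μ κ i ω' := by
  induction i with
  | zero => rfl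
  | succ i ih =>
    have h1 := ih fun j hj => h j (by omega)
    by_cases hi : i < N
    · rw [Yl_succ hi, Yl_succ hi, h1, h ⟨i, hi⟩ (by simp)]
    · rw [Yl_succ' hi, Yl_succ' hi, h1]

theorem Yl_mix {i s : ℕ} (his : i ≤ s) (z ω : Fin N → L) :
    Yl o μ κ i (mix s z ω) = Yl o μ κ i z := by
  refine Yl_congr fun j hj => ?_
  unfold mix
  rw [if_pos (by omega)]

/-- scaled mass of the trivial places in `[a, b)` -/
noncomputable def eM (o : Fin N → L) (μ : Fin N → ℝ) (a b : ℕ) (ω : Fin N → L) : ℝ :=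
  ∑ j ∈ univ.filter (fun j : Fin N => a ≤ (j : ℕ) ∧ (j : ℕ) < b ∧ ω j = o j), μ j

/-- number of deviations in `[a, b)` -/
def dN (o : Fin N → L) (a b : ℕ) (ω : Fin N → L) : ℕ :=
  (univ.filter (fun j : Fin N => a ≤ (j : ℕ) ∧ (j : ℕ) < b ∧ ω j ≠ o j)).card

theorem filt_succ {a i : ℕ} (hai : a ≤ i) (h : i < N) (p : Fin N → Prop) [DecidablePred p] :
    univ.filter (fun j : Fin N => a ≤ (j : ℕ) ∧ (j : ℕ) < i + 1 ∧ p j) =
      if p ⟨i, h⟩ then insert ⟨i, h⟩ (univ.filter (fun j : Fin N => a ≤ (j : ℕ) ∧ (j : ℕ) < i ∧ p j))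
      else univ.filter (fun j : Fin N => a ≤ (j : ℕ) ∧ (j : ℕ) < i ∧ p j) := by
  split_ifs with hp
  · ext j
    simp only [mem_filter, mem_univ, true_and, mem_insert]
    constructor
    · rintro ⟨h1, h2, h3⟩
      by_cases hj : (j : ℕ) = i
      · left
        exact Fin.ext hj
      · right
        exact ⟨h1, by omega, h3⟩
    · rintro (rfl | ⟨h1, h2, h3⟩)
      · exact ⟨hai, by simp, hp⟩
      · exact ⟨h1, by omega, h3⟩
  · ext j
    simp only [mem_filter, mem_univ, true_and]
    constructor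
    · rintro ⟨h1, h2, h3⟩
      refine ⟨h1, ?_, h3⟩
      by_contra h4
      have : (j : ℕ) = i := by omega
      have h5 : j = ⟨i, h⟩ := Fin.ext this
      rw [h5] at h3
      exact hp h3
    · rintro ⟨h1, h2, h3⟩
      exact ⟨h1, by omega, h3⟩

theorem eM_succ {a i : ℕ} (hai : a ≤ i) (h : i < N) (ω : Fin N → L) :
    eM o μ a (i + 1) ω = eM o μ a i ω + (if ω ⟨i, h⟩ = o ⟨i, h⟩ then μ ⟨i, h⟩ else 0) := by
  unfold eM
  rw [filt_succ hai h]
  split_ifs with hp
  · rw [sum_insert, add_comm]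
    simp
  · rw [add_zero]

theorem dN_succ {a i : ℕ} (hai : a ≤ i) (h : i < N) (ω : Fin N → L) :
    dN o a (i + 1) ω = dN o a i ω + (if ω ⟨i, h⟩ = o ⟨i, h⟩ then 0 else 1) := by
  unfold dN
  rw [filt_succ hai h]
  by_cases hp : ω ⟨i, h⟩ = o ⟨i, h⟩
  · rw [if_pos hp, if_neg (not_not.2 hp), add_zero]
  · rw [if_neg hp, if_pos hp, card_insert_of_notMem]
    simp

theorem eM_top {a i : ℕ} (h : ¬ i < N) (ω : Fin N → L) : eM o μ a (i + 1) ω = eM o μ a i ω := by
  unfold eM
  congr 1
  refine filter_congr fun j _ => ?_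
  have := j.2
  constructor
  · rintro ⟨h1, -, h3⟩
    exact ⟨h1, by omega, h3⟩
  · rintro ⟨h1, -, h3⟩
    exact ⟨h1, by omega, h3⟩

theorem dN_top {a i : ℕ} (h : ¬ i < N) (ω : Fin N → L) : dN o a (i + 1) ω = dN o a i ω := by
  unfold dN
  congr 1
  refine filter_congr fun j _ => ?_
  have := j.2
  constructor
  · rintro ⟨h1, -, h3⟩
    exact ⟨h1, by omega, h3⟩
  · rintro ⟨h1, -, h3⟩
    exact ⟨h1, by omega, h3⟩

theorem eM_self (a : ℕ) (ω : Fin N → L) : eM o μ a a ω = 0 := by
  unfold eM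
  rw [filter_false_of_mem, sum_empty]
  rintro j - ⟨h1, h2, -⟩
  omega

theorem dN_self (a : ℕ) (ω : Fin N → L) : dN o a a ω = 0 := by
  unfold dN
  rw [filter_false_of_mem, card_empty]
  rintro j - ⟨h1, h2, -⟩
  omega

/-- the walk dominates `d - κ e` on every interval ending at `i` -/
theorem le_Yl {a i : ℕ} (hai : a ≤ i) (ω : Fin N → L) :
    (dN o a i ω : ℝ) - κ * eM o μ a i ω ≤ Yl o μ κ i ω := by
  induction i, hai using Nat.le_induction with
  | base =>
    rw [eM_self, dN_self]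
    have := Yl_nonneg (o := o) (μ := μ) (κ := κ) a ω
    simpa using this
  | succ i hai ih =>
    by_cases h : i < N
    · rw [Yl_succ h, eM_succ hai h, dN_succ hai h]
      refine le_trans ?_ (le_max_left _ _)
      split_ifs
      · push_cast
        linarith
      · push_cast
        linarith
    · rw [Yl_succ' h, eM_top h, dN_top h]
      exact ih

/-- the walk decreases at most by `κ` times the mass on a trivial interval, and it is at most
its starting value plus the number of deviations -/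
theorem Yl_ge_of_Tv (hκ : 0 ≤ κ) (hμ : ∀ j, 0 ≤ μ j) {a i : ℕ} (hai : a ≤ i) {ω : Fin N → L}
    (hT : Tv o a i ω) :
    Yl o μ κ a ω - κ * ∑ j ∈ univ.filter (fun j : Fin N => a ≤ (j : ℕ) ∧ (j : ℕ) < i), μ j ≤
      Yl o μ κ i ω := by
  have h1 : ∀ b, a ≤ b → b ≤ i → Yl o μ κ a ω - κ * eM o μ a b ω ≤ Yl o μ κ b ω := by
    intro b hab
    induction b, hab using Nat.le_induction with
    | base =>
      intro _
      rw [eM_self]
      simp
    | succ b hab ih =>
      intro hb
      have ih' := ih (by omega)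
      by_cases h : b < N
      · rw [Yl_succ h, eM_succ hab h, if_pos (hT ⟨b, h⟩ hab (by simpa using hb))]
        refine le_trans ?_ (le_max_left _ _)
        rw [if_pos (hT ⟨b, h⟩ hab (by simpa using hb))]
        linarith
      · rw [Yl_succ' h, eM_top h]
        exact ih'
  have h2 := h1 i hai le_rfl
  have h3 : eM o μ a i ω = ∑ j ∈ univ.filter (fun j : Fin N => a ≤ (j : ℕ) ∧ (j : ℕ) < i), μ j := by
    unfold eM
    congr 1
    refine filter_congr fun j _ => ?_
    constructor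
    · rintro ⟨h4, h5, -⟩
      exact ⟨h4, h5⟩
    · rintro ⟨h4, h5⟩
      exact ⟨h4, h5, hT j h4 h5⟩
  rw [h3] at h2
  exact h2

/-! ### Exponential moments -/

variable [Fintype L]

theorem max_exp_le {t y s : ℝ} (ht : 0 ≤ t) (hy : 0 ≤ y) (hs : 0 ≤ s) :
    Real.exp (t * max (y - s) 0) ≤ Real.exp (t * y) * Real.exp (-(t * s)) +
      (1 - Real.exp (-(t * s))) := by
  have e0 : Real.exp (-(t * s)) ≤ 1 := Real.exp_le_one_iff.2 (by
    have := mul_nonneg ht hs
    linarith)
  have e1 : 1 ≤ Real.exp (t * y) := Real.one_le_exp (mul_nonneg ht hy)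
  have e2 : Real.exp (t * (y - s)) = Real.exp (t * y) * Real.exp (-(t * s)) := by
    rw [← Real.exp_add]
    congr 1
    ring
  rcases le_total (y - s) 0 with h | h
  · rw [max_eq_right h, mul_zero, Real.exp_zero]
    nlinarith [Real.exp_pos (-(t * s))]
  · rw [max_eq_left h, e2]
    linarith

/-- the exponential moments of the walk are at most `2` -/
theorem Ex_exp_Yl {π : Fin N → L → ℝ} (hπ : ∀ j m, 0 ≤ π j m) (h1 : ∀ j, ∑ m, π j m = 1)
    (hμ : ∀ j, 0 ≤ μ j) (hκ : 0 ≤ κ) {c1 t : ℝ} (ht : 0 ≤ t)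
    (hp : ∀ j, 1 - π j (o j) ≤ c1 * μ j) (htμ : ∀ j, t * (κ * μ j) ≤ 1)
    (hc : c1 * Real.exp t ≤ t * κ / 4) (i : ℕ) :
    Ex π (fun z => Real.exp (t * Yl o μ κ i z)) ≤ 2 := by
  induction i with
  | zero =>
    have : Ex π (fun z => Real.exp (t * Yl o μ κ 0 z)) = 1 := by
      simp only [Yl_zero, mul_zero, Real.exp_zero]
      exact Ex_const π h1 1
    rw [this]
    norm_num
  | succ i ih =>
    by_cases h : i < N
    · set j : Fin N := ⟨i, h⟩ with hj
      set η : ℝ := 1 - Real.exp (-(t * (κ * μ j))) with hη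
      have hη0 : 0 ≤ η := by
        rw [hη]
        have : Real.exp (-(t * (κ * μ j))) ≤ 1 := Real.exp_le_one_iff.2 (by
          have := mul_nonneg ht (mul_nonneg hκ (hμ j))
          linarith)
        linarith
      have hx0 : 0 ≤ t * (κ * μ j) := mul_nonneg ht (mul_nonneg hκ (hμ j))
      have hηl : t * (κ * μ j) / 2 ≤ η := by
        -- `1 - e^{-x} ≥ x/2` for `0 ≤ x ≤ 1`
        set x := t * (κ * μ j) with hx
        have hx1 : x ≤ 1 := htμ j
        have h3 : Real.exp (-x) ≤ 1 / (1 + x) := by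
          rw [Real.exp_neg, ← one_div]
          refine one_div_le_one_div_of_le (by linarith) ?_
          have := Real.add_one_le_exp x
          linarith
        have h4 : 1 / (1 + x) ≤ 1 - x / 2 := by
          rw [div_le_iff₀ (by linarith)]
          nlinarith
        rw [hη]
        linarith
      have hpe : (1 - π j (o j)) * Real.exp t ≤ η / 2 := by
        have h3 : (1 - π j (o j)) * Real.exp t ≤ c1 * μ j * Real.exp t :=
          mul_le_mul_of_nonneg_right (hp j) (Real.exp_pos t).le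
        have h4 : c1 * μ j * Real.exp t ≤ t * κ / 4 * μ j := by
          have := mul_le_mul_of_nonneg_right hc (hμ j)
          linarith
        linarith
      have hle1 : π j (o j) ≤ 1 := by
        rw [← h1 j]
        exact single_le_sum (fun m _ => hπ j m) (mem_univ _)
      rw [Ex_coord π h1 j]
      -- pointwise bound of the inner sum
      have key : ∑ m, π j m * Ex π (fun z => Real.exp (t * Yl o μ κ (i + 1)
          (Function.update z j m))) ≤
          Ex π (fun z => Real.exp (t * Yl o μ κ i z) * (1 - η / 2) + η) := by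
        have e1 : ∑ m, π j m * Ex π (fun z => Real.exp (t * Yl o μ κ (i + 1)
            (Function.update z j m))) =
            Ex π (fun z => ∑ m, π j m * Real.exp (t * Yl o μ κ (i + 1)
            (Function.update z j m))) := by
          unfold Ex
          simp only [mul_sum]
          rw [sum_comm]
          exact sum_congr rfl fun z _ => sum_congr rfl fun m _ => by ring
        rw [e1]
        refine Ex_mono hπ fun z => ?_
        have e2 : ∀ m, Yl o μ κ (i + 1) (Function.update z j m) =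
            max (Yl o μ κ i z + (if m = o j then -(κ * μ j) else 1)) 0 := by
          intro m
          rw [Yl_succ h, ← hj, Function.update_self]
          congr 2
          refine Yl_congr fun k hk => ?_
          rw [Function.update_of_ne]
          intro hkj
          rw [hkj, hj] at hk
          simp at hk
        have hy := Yl_nonneg (o := o) (μ := μ) (κ := κ) i z
        set y := Yl o μ κ i z with hydef
        have e3 : ∑ m, π j m * Real.exp (t * Yl o μ κ (i + 1) (Function.update z j m)) =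
            π j (o j) * Real.exp (t * max (y - κ * μ j) 0) +
            (1 - π j (o j)) * Real.exp (t * (y + 1)) := by
          have e4 : ∀ m, π j m * Real.exp (t * Yl o μ κ (i + 1) (Function.update z j m)) =
              π j m * Real.exp (t * (y + 1)) + (if m = o j then
                π j m * (Real.exp (t * max (y - κ * μ j) 0) - Real.exp (t * (y + 1))) else 0) := by
            intro m
            rw [e2 m]
            by_cases hm : m = o j
            · rw [if_pos hm, if_pos hm]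
              have : y + -(κ * μ j) = y - κ * μ j := by ring
              rw [this]
              ring
            · rw [if_neg hm, if_neg hm, max_eq_left (by linarith)]
              ring
          rw [sum_congr rfl fun m _ => e4 m, sum_add_distrib, ← sum_mul, h1 j,
            sum_ite_eq' univ (o j)]
          simp only [mem_univ, if_true]
          ring
        rw [e3]
        have e5 := max_exp_le ht hy (mul_nonneg hκ (hμ j))
        have e6 : Real.exp (t * (y + 1)) = Real.exp (t * y) * Real.exp t := by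
          rw [← Real.exp_add]
          congr 1
          ring
        have e7 : Real.exp (-(t * (κ * μ j))) = 1 - η := by rw [hη]; ring
        rw [e7] at e5
        have e8 : 0 < Real.exp (t * y) := Real.exp_pos _
        have e9 : 0 ≤ Real.exp (t * y) * (1 - η) + (1 - (1 - η)) := by
          have : 0 ≤ 1 - η := by
            rw [← e7]
            exact (Real.exp_pos _).le
          have := mul_nonneg e8.le this
          linarith
        calc π j (o j) * Real.exp (t * max (y - κ * μ j) 0) + (1 - π j (o j)) *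
              Real.exp (t * (y + 1))
            ≤ 1 * (Real.exp (t * y) * (1 - η) + (1 - (1 - η))) +
              Real.exp (t * y) * ((1 - π j (o j)) * Real.exp t) := by
              rw [e6]
              have a1 : π j (o j) * Real.exp (t * max (y - κ * μ j) 0) ≤
                  1 * (Real.exp (t * y) * (1 - η) + (1 - (1 - η))) :=
                mul_le_mul hle1 e5 (Real.exp_pos _).le zero_le_one
              linarith
          _ ≤ Real.exp (t * y) * (1 - η) + η + Real.exp (t * y) * (η / 2) := by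
              have := mul_le_mul_of_nonneg_left hpe e8.le
              linarith
          _ = Real.exp (t * y) * (1 - η / 2) + η := by ring
      refine key.trans ?_
      rw [Ex_add, Ex_const π h1]
      have e10 : Ex π (fun z => Real.exp (t * Yl o μ κ i z) * (1 - η / 2)) =
          (1 - η / 2) * Ex π (fun z => Real.exp (t * Yl o μ κ i z)) := by
        rw [← Ex_mul]
        congr 1
        funext z
        ring
      rw [e10]
      have h5 : 0 ≤ 1 - η / 2 := by
        have : η ≤ 1 := by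
          rw [hη]
          have := Real.exp_pos (-(t * (κ * μ j)))
          linarith
        linarith
      nlinarith
    · have : (fun z : Fin N → L => Real.exp (t * Yl o μ κ (i + 1) z)) =
          fun z => Real.exp (t * Yl o μ κ i z) := by
        funext z
        rw [Yl_succ' h]
      rw [this]
      exact ih

/-- the conditional form -/
theorem cE_exp_Yl {π : Fin N → L → ℝ} (hπ : ∀ j m, 0 ≤ π j m) (h1 : ∀ j, ∑ m, π j m = 1)
    (hμ : ∀ j, 0 ≤ μ j) (hκ : 0 ≤ κ) {c1 t : ℝ} (ht : 0 ≤ t)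
    (hp : ∀ j, 1 - π j (o j) ≤ c1 * μ j) (htμ : ∀ j, t * (κ * μ j) ≤ 1)
    (hc : c1 * Real.exp t ≤ t * κ / 4) {i s : ℕ} (his : i ≤ s) (ω : Fin N → L) :
    cE π s (fun x => Real.exp (t * Yl o μ κ i x)) ω ≤ 2 := by
  have e1 : cE π s (fun x => Real.exp (t * Yl o μ κ i x)) ω =
      Ex π (fun z => Real.exp (t * Yl o μ κ i z)) := by
    unfold cE Ex
    refine sum_congr rfl fun z _ => ?_
    change Pr π z * Real.exp (t * Yl o μ κ i (mix s z ω)) = Pr π z * Real.exp (t * Yl o μ κ i z)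
    rw [Yl_mix his]
  rw [e1]
  exact Ex_exp_Yl hπ h1 hμ hκ ht hp htμ hc i

/-- **Hölder**: `E_s[x e^{λ Y_i}] ≤ 2^{1/3} (E_s x^{3/2})^{2/3}` for `3 λ = t` -/
theorem cE_mul_exp_Yl {π : Fin N → L → ℝ} (hπ : ∀ j m, 0 ≤ π j m) (h1 : ∀ j, ∑ m, π j m = 1)
    (hμ : ∀ j, 0 ≤ μ j) (hκ : 0 ≤ κ) {c1 l : ℝ} (hl : 0 ≤ l)
    (hp : ∀ j, 1 - π j (o j) ≤ c1 * μ j) (htμ : ∀ j, 3 * l * (κ * μ j) ≤ 1)
    (hc : c1 * Real.exp (3 * l) ≤ 3 * l * κ / 4) {i s : ℕ} (his : i ≤ s)
    {x : (Fin N → L) → ℝ} (hx : ∀ ω, 0 ≤ x ω) (ω : Fin N → L) :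
    cE π s (fun v => x v * Real.exp (l * Yl o μ κ i v)) ω ≤
      2 ^ (1 / 3 : ℝ) * (cE π s (fun v => x v ^ (3 / 2 : ℝ)) ω) ^ (2 / 3 : ℝ) := by
  have hm := cE_exp_Yl hπ h1 hμ hκ (by linarith : (0 : ℝ) ≤ 3 * l) hp htμ hc his ω
  have hpq : (3 / 2 : ℝ).HolderConjugate 3 := by
    rw [Real.holderConjugate_iff]
    norm_num
  have hH := Real.inner_le_Lp_mul_Lq (univ : Finset (Fin N → L))
    (fun z => Pr π z ^ (2 / 3 : ℝ) * x (mix s z ω))
    (fun z => Pr π z ^ (1 / 3 : ℝ) * Real.exp (l * Yl o μ κ i (mix s z ω))) hpq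
  have e1 : ∀ z : Fin N → L, Pr π z ^ (2 / 3 : ℝ) * x (mix s z ω) *
      (Pr π z ^ (1 / 3 : ℝ) * Real.exp (l * Yl o μ κ i (mix s z ω))) =
      Pr π z * (x (mix s z ω) * Real.exp (l * Yl o μ κ i (mix s z ω))) := by
    intro z
    have : Pr π z ^ (2 / 3 : ℝ) * Pr π z ^ (1 / 3 : ℝ) = Pr π z := by
      rcases (Pr_nonneg hπ z).eq_or_lt with h | h
      · rw [← h]
        rw [Real.zero_rpow (by norm_num), zero_mul]
      · rw [← Real.rpow_add h]
        norm_num
    calc _ = (Pr π z ^ (2 / 3 : ℝ) * Pr π z ^ (1 / 3 : ℝ)) *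
          (x (mix s z ω) * Real.exp (l * Yl o μ κ i (mix s z ω))) := by ring
      _ = _ := by rw [this]
  have e2 : ∀ z : Fin N → L, |Pr π z ^ (2 / 3 : ℝ) * x (mix s z ω)| ^ (3 / 2 : ℝ) =
      Pr π z * x (mix s z ω) ^ (3 / 2 : ℝ) := by
    intro z
    rw [abs_of_nonneg (mul_nonneg (Real.rpow_nonneg (Pr_nonneg hπ z) _) (hx _)),
      Real.mul_rpow (Real.rpow_nonneg (Pr_nonneg hπ z) _) (hx _), ← Real.rpow_mul (Pr_nonneg hπ z)]
    norm_num
  have e3 : ∀ z : Fin N → L, |Pr π z ^ (1 / 3 : ℝ) *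
      Real.exp (l * Yl o μ κ i (mix s z ω))| ^ (3 : ℝ) =
      Pr π z * Real.exp (3 * l * Yl o μ κ i (mix s z ω)) := by
    intro z
    rw [abs_of_nonneg (mul_nonneg (Real.rpow_nonneg (Pr_nonneg hπ z) _) (Real.exp_pos _).le),
      Real.mul_rpow (Real.rpow_nonneg (Pr_nonneg hπ z) _) (Real.exp_pos _).le,
      ← Real.rpow_mul (Pr_nonneg hπ z), ← Real.exp_mul]
    norm_num
    left
    ring_nf
  simp only [e1, e2, e3] at hH
  have e4 : (1 : ℝ) / (3 / 2) = 2 / 3 := by norm_num
  rw [e4] at hH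
  have hS0 : 0 ≤ ∑ z, Pr π z * Real.exp (3 * l * Yl o μ κ i (mix s z ω)) :=
    sum_nonneg fun z _ => mul_nonneg (Pr_nonneg hπ z) (Real.exp_pos _).le
  have hX0 : 0 ≤ ∑ z, Pr π z * x (mix s z ω) ^ (3 / 2 : ℝ) :=
    sum_nonneg fun z _ => mul_nonneg (Pr_nonneg hπ z) (Real.rpow_nonneg (hx _) _)
  have h5 : (∑ z, Pr π z * Real.exp (3 * l * Yl o μ κ i (mix s z ω))) ^ (1 / 3 : ℝ) ≤
      2 ^ (1 / 3 : ℝ) := Real.rpow_le_rpow hS0 hm (by norm_num)
  calc cE π s (fun v => x v * Real.exp (l * Yl o μ κ i v)) ω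
      ≤ (∑ z, Pr π z * x (mix s z ω) ^ (3 / 2 : ℝ)) ^ (2 / 3 : ℝ) *
        (∑ z, Pr π z * Real.exp (3 * l * Yl o μ κ i (mix s z ω))) ^ (1 / 3 : ℝ) := hH
    _ ≤ (∑ z, Pr π z * x (mix s z ω) ^ (3 / 2 : ℝ)) ^ (2 / 3 : ℝ) * 2 ^ (1 / 3 : ℝ) :=
        mul_le_mul_of_nonneg_left h5 (Real.rpow_nonneg hX0 _)
    _ = _ := by
        rw [mul_comm]
        rfl

/-- **Pieces**: the T-starts of one piece (a set of places in `[a, e]` on which the word `ω` has no
deviation) are replaced by the end of the piece. `Nw s v`: the word `v` is new at the place `s`. -/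
theorem cE_piece {π : Fin N → L → ℝ} (hπ : ∀ j m, 0 ≤ π j m) (h1 : ∀ j, ∑ m, π j m = 1)
    (hμ : ∀ j, 0 ≤ μ j) (hκ : 0 ≤ κ) {l : ℝ} (hl : 0 ≤ l)
    (Nw : ℕ → (Fin N → L) → Prop)
    (hsep : ∀ v s s', Nw s v → Nw s' v → s < s' → ¬ Tv o s s' v)
    {I : Finset ℕ} {a e : ℕ} (hI : ∀ i ∈ I, a ≤ i ∧ i ≤ e) {ω : Fin N → L} (hω : Tv o a e ω)
    (hm : ∑ j ∈ univ.filter (fun j : Fin N => a ≤ (j : ℕ) ∧ (j : ℕ) < e), (1 - π j (o j)) ≤ 1 / 2)
    {B : ℝ} (hB : ∑ j ∈ univ.filter (fun j : Fin N => a ≤ (j : ℕ) ∧ (j : ℕ) < e), μ j ≤ B)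
    {y : (Fin N → L) → ℝ} (hy : ∀ v, 0 ≤ y v) :
    ∑ i ∈ I, cE π i (fun v => by
      classical exact if Nw i v then y v * Real.exp (l * Yl o μ κ i v) else 0) ω ≤
      2 * Real.exp (l * (κ * B)) * cE π e (fun v => y v * Real.exp (l * Yl o μ κ e v)) ω := by
  classical
  refine (cE_block hπ h1 hI hω hm (h := fun i v =>
    if Nw i v then y v * Real.exp (l * Yl o μ κ i v) else 0) fun i v => ?_).trans ?_
  · split_ifs
    · exact mul_nonneg (hy v) (Real.exp_pos _).le
    · exact le_rfl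
  rw [mul_assoc]
  refine mul_le_mul_of_nonneg_left ?_ (by norm_num)
  have e1 : Real.exp (l * (κ * B)) * cE π e (fun v => y v * Real.exp (l * Yl o μ κ e v)) ω =
      cE π e (fun v => Real.exp (l * (κ * B)) * (y v * Real.exp (l * Yl o μ κ e v))) ω := by
    unfold cE
    rw [mul_sum]
    exact sum_congr rfl fun z _ => by ring
  rw [e1]
  refine cE_mono hπ (fun v => ?_) ω
  -- at most one place counts
  set J := I.filter (fun i => Tv o i e v ∧ Nw i v) with hJ
  have hcard : J.card ≤ 1 := by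
    rw [card_le_one]
    intro i hi i' hi'
    rw [hJ, mem_filter] at hi hi'
    by_contra hne
    rcases Nat.lt_or_gt_of_ne hne with h | h
    · refine hsep v i i' hi.2.2 hi'.2.2 h fun j h3 h4 => hi.2.1 j h3 ?_
      exact lt_of_lt_of_le h4 (hI i' hi'.1).2
    · refine hsep v i' i hi'.2.2 hi.2.2 h fun j h3 h4 => hi'.2.1 j h3 ?_
      exact lt_of_lt_of_le h4 (hI i hi.1).2
  have e2 : (∑ i ∈ I, if Tv o i e v then (if Nw i v then y v * Real.exp (l * Yl o μ κ i v) else 0)
      else 0) = ∑ i ∈ J, y v * Real.exp (l * Yl o μ κ i v) := by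
    rw [hJ, sum_filter]
    refine sum_congr rfl fun i _ => ?_
    by_cases h3 : Tv o i e v
    · by_cases h4 : Nw i v
      · simp [h3, h4]
      · simp [h3, h4]
    · simp [h3]
  rw [e2]
  have hbound : ∀ i ∈ J, y v * Real.exp (l * Yl o μ κ i v) ≤
      Real.exp (l * (κ * B)) * (y v * Real.exp (l * Yl o μ κ e v)) := by
    intro i hi
    rw [hJ, mem_filter] at hi
    have h5 := Yl_ge_of_Tv (o := o) hκ hμ (hI i hi.1).2 hi.2.1
    have h6 : ∑ j ∈ univ.filter (fun j : Fin N => i ≤ (j : ℕ) ∧ (j : ℕ) < e), μ j ≤ B := by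
      refine le_trans (sum_le_sum_of_subset_of_nonneg ?_ fun j _ _ => hμ j) hB
      intro j hj
      rw [mem_filter] at hj ⊢
      exact ⟨hj.1, (hI i hi.1).1.trans hj.2.1, hj.2.2⟩
    have h7 : Yl o μ κ i v ≤ κ * B + Yl o μ κ e v := by
      have := mul_le_mul_of_nonneg_left h6 hκ
      linarith
    have h8 : Real.exp (l * Yl o μ κ i v) ≤ Real.exp (l * (κ * B)) *
        Real.exp (l * Yl o μ κ e v) := by
      rw [← Real.exp_add]
      refine Real.exp_le_exp.2 ?_
      have := mul_le_mul_of_nonneg_left h7 hl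
      linarith
    have := mul_le_mul_of_nonneg_left h8 (hy v)
    linarith
  have h0 : 0 ≤ Real.exp (l * (κ * B)) * (y v * Real.exp (l * Yl o μ κ e v)) :=
    mul_nonneg (Real.exp_pos _).le (mul_nonneg (hy v) (Real.exp_pos _).le)
  calc ∑ i ∈ J, y v * Real.exp (l * Yl o μ κ i v)
      ≤ ∑ _i ∈ J, Real.exp (l * (κ * B)) * (y v * Real.exp (l * Yl o μ κ e v)) :=
        sum_le_sum hbound
    _ = J.card * (Real.exp (l * (κ * B)) * (y v * Real.exp (l * Yl o μ κ e v))) := by
        rw [sum_const, nsmul_eq_mul]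
    _ ≤ 1 * (Real.exp (l * (κ * B)) * (y v * Real.exp (l * Yl o μ κ e v))) := by
        refine mul_le_mul_of_nonneg_right ?_ h0
        exact_mod_cast hcard
    _ = _ := one_mul _

end Vale.P028.RkP
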