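import Vale.Agent.P028.MathlibUsed
import Vale.Agent.P028.F53.Prod

/-!
# The law of the rank (P1 (C) of the full first question)
-/

namespace Vale.P028.RkP

open Finset Vale.P028.RN

/-! ### Deterministic part -/

/-- number of the E units minus number of the D units in `(a, b]` (`u k = true`: unit `k` is D) -/
def Sw (u : ℕ → Bool) (a b : ℕ) : ℤ := ∑ k ∈ Ioc a b, (if u k then (-1 : ℤ) else 1)

/-- `a` is linked to `i`: the walk never exceeds its value at `a` on `(a, i]` -/
def Lnk (u : ℕ → Bool) (a i : ℕ) : Prop := a < i ∧ ∀ b ∈ Ioc a i, Sw u a b ≤ 0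

open Classical in
/-- the rank of the boundary `i` -/
noncomputable def rk (u : ℕ → Bool) (i : ℕ) : ℕ := ((range i).filter (fun a => Lnk u a i)).card

/-- number of D units in `(a, b]` -/
def nD (u : ℕ → Bool) (a b : ℕ) : ℕ := ((Ioc a b).filter (fun k => u k = true)).card

theorem Sw_eq (u : ℕ → Bool) {a b : ℕ} : Sw u a b = ((b - a : ℕ) : ℤ) - 2 * nD u a b := by
  unfold Sw nD
  have h1 : ∑ k ∈ Ioc a b, (if u k then (-1 : ℤ) else 1) =
      ∑ k ∈ Ioc a b, ((1 : ℤ) - 2 * (if u k = true then 1 else 0)) := by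
    refine sum_congr rfl fun k _ => ?_
    by_cases h : u k = true
    · simp [h]
    · simp [h]
  rw [h1, sum_sub_distrib, ← mul_sum, sum_boole]
  simp

theorem Lnk.le {u : ℕ → Bool} {a i : ℕ} (h : Lnk u a i) : i - a ≤ 2 * nD u a i := by
  have h1 := h.2 i (mem_Ioc.2 ⟨h.1, le_rfl⟩)
  rw [Sw_eq] at h1
  omega

theorem exists_of_rk {u : ℕ → Bool} {i n : ℕ} (hn : 1 ≤ n) (h : n ≤ rk u i) :
    ∃ m, n ≤ m ∧ m ≤ i ∧ m ≤ 2 * nD u (i - m) i := by
  classical
  set s := (range i).filter (fun a => Lnk u a i) with hs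
  have hne : s.Nonempty := by
    rw [← card_pos]
    exact lt_of_lt_of_le hn h
  set a := s.min' hne with ha
  have h1 : a ∈ s := min'_mem _ _
  have h2 : a < i ∧ Lnk u a i := by
    rw [hs, mem_filter, mem_range] at h1
    exact h1
  have h3 : s ⊆ Ico a i := fun b hb => mem_Ico.2 ⟨min'_le _ _ hb, by
    rw [hs, mem_filter, mem_range] at hb
    exact hb.1⟩
  have h4 : s.card ≤ i - a := by
    refine (card_le_card h3).trans ?_
    rw [Nat.card_Ico]
  refine ⟨i - a, h.trans h4, Nat.sub_le _ _, ?_⟩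
  have h5 : i - (i - a) = a := by omega
  rw [h5]
  exact h2.2.le

/-! ### Units in a finite product space -/

variable {N : ℕ} {L : Type*} [DecidableEq L]

/-- the unit `k` of the word `ω` is D : some label of the unit is not the base label -/
def Dv (un : Fin N → ℕ) (o : Fin N → L) (ω : Fin N → L) (k : ℕ) : Bool :=
  decide (∃ j, un j = k ∧ ω j ≠ o j)

theorem Dv_eq_true {un : Fin N → ℕ} {o ω : Fin N → L} {k : ℕ} :
    Dv un o ω k = true ↔ ∃ j, un j = k ∧ ω j ≠ o j := by
  unfold Dv
  exact decide_eq_true_iff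

theorem Dv_mix {un : Fin N → ℕ} {o : Fin N → L} {s k : ℕ} (h : ∀ j, un j = k → (j : ℕ) < s)
    (z ω : Fin N → L) : Dv un o (mix s z ω) k = Dv un o z k := by
  unfold Dv
  congr 1
  refine propext (exists_congr fun j => and_congr_right fun hj => ?_)
  unfold mix
  rw [if_pos (h j hj)]

theorem nD_congr {u u' : ℕ → Bool} {a b : ℕ} (h : ∀ k ∈ Ioc a b, u k = u' k) :
    nD u a b = nD u' a b := by
  unfold nD
  congr 1
  exact filter_congr fun k hk => by rw [h k hk]

theorem Sw_congr {u u' : ℕ → Bool} {a b : ℕ} (h : ∀ k ∈ Ioc a b, u k = u' k) :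
    Sw u a b = Sw u' a b := by
  unfold Sw
  exact sum_congr rfl fun k hk => by rw [h k hk]

theorem rk_congr {u u' : ℕ → Bool} {i : ℕ} (h : ∀ k ≤ i, u k = u' k) : rk u i = rk u' i := by
  classical
  unfold rk
  congr 1
  refine filter_congr fun a _ => ?_
  unfold Lnk
  refine and_congr_right fun _ => ?_
  refine forall₂_congr fun b hb => ?_
  rw [Sw_congr (u := u) (u' := u') fun k hk => h k ?_]
  have h1 := (mem_Ioc.1 hk).2
  have h2 := (mem_Ioc.1 hb).2
  omega

variable [Fintype L]

/-- the mass of the unit `k` -/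
noncomputable def mu (π : Fin N → L → ℝ) (un : Fin N → ℕ) (o : Fin N → L) (k : ℕ) : ℝ :=
  ∑ j ∈ univ.filter (fun j => un j = k), (1 - π j (o j))

omit [DecidableEq L] in
theorem Ex_prod (π : Fin N → L → ℝ) (g : Fin N → L → ℝ) :
    Ex π (fun ω => ∏ j, g j (ω j)) = ∏ j, ∑ m, π j m * g j m := by
  unfold Ex Pr
  rw [prod_univ_sum, Fintype.piFinset_univ]
  exact sum_congr rfl fun ω _ => prod_mul_distrib.symm

omit [Fintype L] [DecidableEq L] in
theorem one_le_prod_aux {ι : Type*} (s : Finset ι) (f : ι → ℝ) (h : ∀ j ∈ s, 1 ≤ f j) :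
    1 ≤ ∏ j ∈ s, f j := by
  have := prod_le_prod (s := s) (f := fun _ => (1 : ℝ)) (g := f) (fun _ _ => zero_le_one) h
  simpa using this

/-- Markov inequality for the number of D units -/
theorem prob_nD {π : Fin N → L → ℝ} (hπ : ∀ j m, 0 ≤ π j m) (h1 : ∀ j, ∑ m, π j m = 1)
    {un : Fin N → ℕ} {o : Fin N → L} {c1 : ℝ} (hc : 0 < c1) (hc1 : c1 ≤ 1)
    (hmu : ∀ k, mu π un o k ≤ c1) (i m : ℕ) (hm : m ≤ i) :
    Ex π (fun z => if m ≤ 2 * nD (Dv un o z) (i - m) i then 1 else 0) ≤
      (Real.exp 1 * Real.sqrt c1) ^ m := by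
  classical
  set t : ℝ := 1 / c1 with ht
  have ht1 : 1 ≤ t := by
    rw [ht, le_div_iff₀ hc]
    linarith
  have hsq : 0 < Real.sqrt c1 := Real.sqrt_pos.2 hc
  have hsq1 : Real.sqrt c1 ≤ 1 := by
    rw [← Real.sqrt_one]
    exact Real.sqrt_le_sqrt hc1
  -- the pointwise bound
  have key : ∀ z : Fin N → L, (if m ≤ 2 * nD (Dv un o z) (i - m) i then (1 : ℝ) else 0) ≤
      (Real.sqrt c1) ^ m * ∏ j, (if un j ∈ Ioc (i - m) i ∧ z j ≠ o j then t else 1) := by
    intro z
    have hP : ∀ k : ℕ, Dv un o z k = true →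
        t ≤ ∏ j ∈ univ.filter (fun j => un j = k), (if z j ≠ o j then t else 1) := by
      intro k hk
      obtain ⟨j, hj, hz⟩ := Dv_eq_true.1 hk
      have hjm : j ∈ univ.filter (fun j => un j = k) := mem_filter.2 ⟨mem_univ _, hj⟩
      rw [← mul_prod_erase _ _ hjm, if_pos hz]
      refine le_mul_of_one_le_right (by linarith) ?_
      refine one_le_prod_aux _ _ ?_
      intro j' _
      split_ifs
      · exact ht1
      · exact le_rfl
    have hQ : ∀ k : ℕ, 1 ≤ ∏ j ∈ univ.filter (fun j => un j = k), (if z j ≠ o j then t else 1) := by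
      intro k
      refine one_le_prod_aux _ _ ?_
      intro j' _
      split_ifs
      · exact ht1
      · exact le_rfl
    have hprod : (∏ j, (if un j ∈ Ioc (i - m) i ∧ z j ≠ o j then t else 1)) =
        ∏ k ∈ Ioc (i - m) i, ∏ j ∈ univ.filter (fun j => un j = k),
          (if z j ≠ o j then t else 1) := by
      have e1 : (∏ j, (if un j ∈ Ioc (i - m) i ∧ z j ≠ o j then t else 1)) =
          ∏ j ∈ univ.filter (fun j => un j ∈ Ioc (i - m) i), (if z j ≠ o j then t else 1) := by
        rw [prod_filter]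
        refine prod_congr rfl fun j _ => ?_
        by_cases h : un j ∈ Ioc (i - m) i
        · simp only [h, true_and, if_true]
        · simp only [h, false_and, if_false]
      rw [e1]
      rw [← prod_fiberwise_of_maps_to (s := univ.filter (fun j => un j ∈ Ioc (i - m) i))
        (t := Ioc (i - m) i) (g := un) (fun j hj => (mem_filter.1 hj).2)]
      refine prod_congr rfl fun k hk => ?_
      refine prod_congr ?_ fun _ _ => rfl
      ext j
      simp only [mem_filter, mem_univ, true_and]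
      constructor
      · exact fun h => h.2
      · exact fun h => ⟨by rw [h]; exact hk, h⟩
    have hge : t ^ nD (Dv un o z) (i - m) i ≤
        ∏ j, (if un j ∈ Ioc (i - m) i ∧ z j ≠ o j then t else 1) := by
      rw [hprod]
      unfold nD
      rw [← prod_const]
      rw [prod_filter]
      refine prod_le_prod (fun k _ => ?_) fun k _ => ?_
      · split_ifs
        · linarith
        · exact zero_le_one
      · split_ifs with h
        · exact hP k h
        · exact hQ k
    have hge1 : (1 : ℝ) ≤ t ^ nD (Dv un o z) (i - m) i := one_le_pow₀ ht1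
    split_ifs with h
    · have h2 : (1 : ℝ) ≤ (Real.sqrt c1) ^ m * t ^ nD (Dv un o z) (i - m) i := by
        have e2 : t ^ nD (Dv un o z) (i - m) i =
            ((Real.sqrt c1) ^ (2 * nD (Dv un o z) (i - m) i))⁻¹ := by
          rw [pow_mul, Real.sq_sqrt hc.le, ht, one_div, inv_pow]
        rw [e2, ← div_eq_mul_inv, le_div_iff₀ (by positivity), one_mul]
        exact pow_le_pow_of_le_one hsq.le hsq1 h
      exact h2.trans (mul_le_mul_of_nonneg_left hge (by positivity))
    · have : (0 : ℝ) ≤ ∏ j, (if un j ∈ Ioc (i - m) i ∧ z j ≠ o j then t else 1) := by linarith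
      positivity
  refine (Ex_mono hπ key).trans ?_
  rw [Ex_mul, Ex_prod π (fun j l => if un j ∈ Ioc (i - m) i ∧ l ≠ o j then t else 1)]
  -- factors
  have hfac : ∀ j : Fin N, ∑ l, π j l * (if un j ∈ Ioc (i - m) i ∧ l ≠ o j then t else 1) ≤
      Real.exp (if un j ∈ Ioc (i - m) i then (t - 1) * (1 - π j (o j)) else 0) := by
    intro j
    by_cases h : un j ∈ Ioc (i - m) i
    · simp only [h, true_and, if_true]
      have e3 : ∑ l, π j l * (if l ≠ o j then t else 1) = 1 + (t - 1) * (1 - π j (o j)) := by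
        have e4 : ∀ l, π j l * (if l ≠ o j then t else 1) =
            t * π j l - (t - 1) * (if l = o j then π j l else 0) := by
          intro l
          by_cases hl : l = o j
          · simp [hl]
            ring
          · simp [hl]
            ring
        rw [sum_congr rfl fun l _ => e4 l, sum_sub_distrib, ← mul_sum, ← mul_sum, h1 j,
          sum_ite_eq' univ (o j)]
        simp only [mem_univ, if_true]
        ring
      rw [e3]
      have := Real.add_one_le_exp ((t - 1) * (1 - π j (o j)))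
      linarith
    · simp only [h, false_and, if_false, mul_one, Real.exp_zero]
      exact (h1 j).le
  have hfac0 : ∀ j : Fin N, 0 ≤ ∑ l, π j l * (if un j ∈ Ioc (i - m) i ∧ l ≠ o j then t else 1) := by
    intro j
    refine sum_nonneg fun l _ => mul_nonneg (hπ j l) ?_
    split_ifs
    · linarith
    · exact zero_le_one
  have hle : ∏ j, ∑ l, π j l * (if un j ∈ Ioc (i - m) i ∧ l ≠ o j then t else 1) ≤
      Real.exp m := by
    refine (prod_le_prod (fun j _ => hfac0 j) fun j _ => hfac j).trans ?_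
    rw [← Real.exp_sum]
    refine Real.exp_le_exp.2 ?_
    have e5 : ∑ j, (if un j ∈ Ioc (i - m) i then (t - 1) * (1 - π j (o j)) else 0) =
        (t - 1) * ∑ k ∈ Ioc (i - m) i, mu π un o k := by
      rw [← sum_filter, ← mul_sum]
      congr 1
      rw [← sum_fiberwise_of_maps_to (s := univ.filter (fun j => un j ∈ Ioc (i - m) i))
        (t := Ioc (i - m) i) (g := un) (fun j hj => (mem_filter.1 hj).2)]
      refine sum_congr rfl fun k hk => ?_
      unfold mu
      refine sum_congr ?_ fun _ _ => rfl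
      ext j
      simp only [mem_filter, mem_univ, true_and]
      constructor
      · exact fun h => h.2
      · exact fun h => ⟨by rw [h]; exact hk, h⟩
    rw [e5]
    have h6 : ∑ k ∈ Ioc (i - m) i, mu π un o k ≤ m * c1 := by
      refine (sum_le_sum fun k _ => hmu k).trans ?_
      rw [sum_const, Nat.card_Ioc, nsmul_eq_mul]
      have : i - (i - m) = m := by omega
      rw [this]
    calc (t - 1) * ∑ k ∈ Ioc (i - m) i, mu π un o k ≤ (t - 1) * (m * c1) :=
          mul_le_mul_of_nonneg_left h6 (by linarith)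
      _ ≤ t * (m * c1) := mul_le_mul_of_nonneg_right (by linarith) (by positivity)
      _ = m := by
          rw [ht]
          field_simp
  calc (Real.sqrt c1) ^ m * ∏ j, ∑ l, π j l * (if un j ∈ Ioc (i - m) i ∧ l ≠ o j then t else 1)
      ≤ (Real.sqrt c1) ^ m * Real.exp m := mul_le_mul_of_nonneg_left hle (by positivity)
    _ = (Real.exp 1 * Real.sqrt c1) ^ m := by
        rw [mul_pow, ← Real.exp_nat_mul, mul_one, mul_comm]

/-- **The law of the rank**, given the inner labels. -/
theorem prob_rk {π : Fin N → L → ℝ} (hπ : ∀ j m, 0 ≤ π j m) (h1 : ∀ j, ∑ m, π j m = 1)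
    {un : Fin N → ℕ} {o : Fin N → L} {c1 : ℝ} (hc : 0 < c1)
    (hc1 : Real.exp 1 * Real.sqrt c1 ≤ 1 / 2)
    (hmu : ∀ k, mu π un o k ≤ c1) {i s : ℕ} (his : ∀ j, un j ≤ i → (j : ℕ) < s) (n : ℕ)
    (ω : Fin N → L) :
    cE π s (fun ω' => if n ≤ rk (Dv un o ω') i then 1 else 0) ω ≤
      2 * (Real.exp 1 * Real.sqrt c1) ^ n := by
  set θ : ℝ := Real.exp 1 * Real.sqrt c1 with hθ
  have hθ0 : 0 ≤ θ := by positivity
  have hsq1 : Real.sqrt c1 ≤ 1 := by
    have h2 : Real.sqrt c1 ≤ Real.exp 1 * Real.sqrt c1 :=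
      le_mul_of_one_le_left (Real.sqrt_nonneg _) (Real.one_le_exp zero_le_one)
    linarith
  have hc11 : c1 ≤ 1 := by
    have := Real.sqrt_le_one.1 hsq1
    exact this
  rcases Nat.eq_zero_or_pos n with rfl | hn
  · have h3 : cE π s (fun ω' => if 0 ≤ rk (Dv un o ω') i then (1 : ℝ) else 0) ω ≤ 1 :=
      cE_le_one hπ h1 (fun ω' => by split_ifs <;> norm_num) ω
    simp only [pow_zero, mul_one]
    linarith
  have e1 : cE π s (fun ω' => if n ≤ rk (Dv un o ω') i then (1 : ℝ) else 0) ω =
      Ex π (fun z => if n ≤ rk (Dv un o z) i then 1 else 0) := by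
    unfold cE Ex
    refine sum_congr rfl fun z _ => ?_
    have : rk (Dv un o (mix s z ω)) i = rk (Dv un o z) i :=
      rk_congr fun k hk => Dv_mix (fun j hj => his j (by omega)) z ω
    change Pr π z * (if n ≤ rk (Dv un o (mix s z ω)) i then (1 : ℝ) else 0) =
      Pr π z * (if n ≤ rk (Dv un o z) i then (1 : ℝ) else 0)
    rw [this]
  rw [e1]
  have e2 : ∀ z : Fin N → L, (if n ≤ rk (Dv un o z) i then (1 : ℝ) else 0) ≤
      ∑ m ∈ Ico n (i + 1), (if m ≤ 2 * nD (Dv un o z) (i - m) i then 1 else 0) := by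
    intro z
    split_ifs with h
    · obtain ⟨m, hm1, hm2, hm3⟩ := exists_of_rk hn h
      refine le_trans ?_ (single_le_sum (f := fun m =>
        (if m ≤ 2 * nD (Dv un o z) (i - m) i then (1 : ℝ) else 0)) (fun m _ => ?_)
        (mem_Ico.2 ⟨hm1, by omega⟩))
      · rw [if_pos hm3]
      · split_ifs <;> norm_num
    · exact sum_nonneg fun m _ => by split_ifs <;> norm_num
  refine (Ex_mono hπ e2).trans ?_
  have e3 : Ex π (fun z => ∑ m ∈ Ico n (i + 1),
      (if m ≤ 2 * nD (Dv un o z) (i - m) i then (1 : ℝ) else 0)) =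
      ∑ m ∈ Ico n (i + 1), Ex π (fun z => if m ≤ 2 * nD (Dv un o z) (i - m) i then 1 else 0) := by
    unfold Ex
    simp only [mul_sum]
    rw [sum_comm]
  rw [e3]
  have e4 : ∀ m ∈ Ico n (i + 1),
      Ex π (fun z => if m ≤ 2 * nD (Dv un o z) (i - m) i then (1 : ℝ) else 0) ≤ θ ^ m :=
    fun m hm => prob_nD hπ h1 hc hc11 hmu i m (by have := (mem_Ico.1 hm).2; omega)
  refine (sum_le_sum e4).trans ?_
  have e5 : ∀ M, ∑ m ∈ Ico n M, θ ^ m ≤ 2 * θ ^ n := by
    intro M
    rcases le_or_gt n M with hnM | hnM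
    · have h6 : ∑ m ∈ Ico n M, θ ^ m = θ ^ n * ∑ k ∈ range (M - n), θ ^ k := by
        rw [sum_Ico_eq_sum_range, mul_sum]
        exact sum_congr rfl fun k _ => by rw [pow_add]
      rw [h6, mul_comm 2]
      refine mul_le_mul_of_nonneg_left ?_ (by positivity)
      have h7 : ∑ k ∈ range (M - n), θ ^ k ≤ ∑ k ∈ range (M - n), (1 / 2 : ℝ) ^ k :=
        sum_le_sum fun k _ => pow_le_pow_left₀ hθ0 hc1 k
      refine h7.trans ?_
      have h8 : ∀ M : ℕ, ∑ k ∈ range M, (1 / 2 : ℝ) ^ k = 2 - 2 * (1 / 2) ^ M := by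
        intro M
        induction M with
        | zero => simp
        | succ M ih =>
          rw [sum_range_succ, ih, pow_succ]
          ring
      rw [h8]
      have : (0 : ℝ) ≤ (1 / 2) ^ (M - n) := by positivity
      linarith
    · rw [Ico_eq_empty (by omega)]
      simp
      positivity
  exact e5 _

end Vale.P028.RkP
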